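import Vale.Agent.P218UZ.LowD
import Mathlib.MeasureTheory.Measure.Support
import Mathlib.Analysis.InnerProductSpace.Spectrum

/-! A self-similar measure with the sub-mean value property and Gaussian density close to one is
carried by a plane. -/

open MeasureTheory Set Filter Topology Metric
open scoped ENNReal NNReal RealInnerProductSpace

namespace Vale.Agent.P218WU

open Vale.Agent.P218UA Vale.Agent.P218UM

/-- squares of affine functions have the sub-mean value property on the flow `√(-t) ν` -/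
def SubMean (ν : Measure E3) : Prop :=
  ∀ y ∈ ν.support, ∀ c : ℝ, 1 < c → ∀ (n : E3) (L : ℝ), (L + ⟪y, n⟫) ^ 2 ≤
    (∫ x, (L + ⟪x, n⟫) ^ 2 * Real.exp (-‖x - y‖ ^ 2 / (4 * (c ^ 2 - 1))) ∂(scal ν c))
      / (4 * Real.pi * (c ^ 2 - 1))

lemma abs_exp_le (x : ℝ) : |Real.exp x - 1 - x| ≤ x ^ 2 * Real.exp |x| := by
  have h := Complex.norm_exp_sub_sum_le_norm_mul_exp (x : ℂ) 2
  simp only [Finset.sum_range_succ, Finset.range_zero, Finset.sum_empty, pow_zero, Nat.factorial,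
    pow_one, Complex.norm_real, Real.norm_eq_abs, sq_abs] at h
  rw [← Real.norm_eq_abs, ← Complex.norm_real]
  refine le_trans (le_of_eq ?_) h
  congr 1
  push_cast
  ring

lemma ker_le {c Q p : ℝ} (hc : 32 ≤ c) (hp : |p| ≤ Q / 2) :
    |c ^ 2 / (c ^ 2 - 1) * Real.exp ((2 * c * p - Q) / (4 * (c ^ 2 - 1))) - 1 - p / (2 * c)|
      ≤ 32768 / c ^ 2 * Real.exp (Q / 32) ∧
    c ^ 2 / (c ^ 2 - 1) * Real.exp ((2 * c * p - Q) / (4 * (c ^ 2 - 1))) ≤ 2 * Real.exp (Q / 32) := by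
  have hQ : 0 ≤ Q := by linarith [abs_nonneg p]
  have h1 : 0 < c ^ 2 - 1 := by nlinarith
  have hc0 : 0 < c := by linarith
  have hc1 : 0 < c - 1 := by linarith
  obtain ⟨p1, p2⟩ := abs_le.1 hp
  set E := (2 * c * p - Q) / (4 * (c ^ 2 - 1)) with hE
  have e1 : |E| ≤ Q / (4 * (c - 1)) := by
    rw [hE, abs_div, abs_of_pos (by positivity : 0 < 4 * (c ^ 2 - 1)),
      div_le_div_iff₀ (by positivity) (by positivity)]
    have : |2 * c * p - Q| ≤ (c + 1) * Q := abs_le.2 ⟨by nlinarith, by nlinarith⟩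
    nlinarith
  have e2 : |E| ≤ Q / 124 := e1.trans (div_le_div_of_nonneg_left hQ (by norm_num) (by linarith))
  have e3 : |E| ≤ Q / c := e1.trans (div_le_div_of_nonneg_left hQ hc0 (by linarith))
  have e4 : |E - p / (2 * c)| ≤ Q / c ^ 2 := by
    have : E - p / (2 * c) = (2 * p - c * Q) / (4 * c * (c ^ 2 - 1)) := by
      rw [hE]; field_simp; ring
    rw [this, abs_div, abs_of_pos (by positivity : 0 < 4 * c * (c ^ 2 - 1)),
      div_le_div_iff₀ (by positivity) (by positivity)]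
    have h2 : |2 * p - c * Q| ≤ (c + 1) * Q := abs_le.2 ⟨by nlinarith, by nlinarith⟩
    have h3 : (c + 1) * c ^ 2 ≤ 4 * c * (c ^ 2 - 1) := by nlinarith
    nlinarith [mul_le_mul_of_nonneg_right h2 (sq_nonneg c), mul_le_mul_of_nonneg_left h3 hQ]
  have e5 : Real.exp E ≤ Real.exp (Q / 124) := Real.exp_le_exp.2 ((le_abs_self _).trans e2)
  have e6 : |Real.exp E - 1 - E| ≤ Q ^ 2 / c ^ 2 * Real.exp (Q / 124) := by
    refine (abs_exp_le E).trans (mul_le_mul ?_ (Real.exp_le_exp.2 e2) (Real.exp_pos _).le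
      (by positivity))
    rw [← sq_abs, ← div_pow]
    exact pow_le_pow_left₀ (abs_nonneg _) e3 2
  have e7 : c ^ 2 / (c ^ 2 - 1) = 1 + 1 / (c ^ 2 - 1) := by field_simp; ring
  have e8 : 1 / (c ^ 2 - 1) ≤ 2 / c ^ 2 := by
    rw [div_le_div_iff₀ h1 (by positivity)]; nlinarith
  have e9 : 2 / c ^ 2 ≤ 1 := by rw [div_le_one (by positivity)]; nlinarith
  have e10 : 1 ≤ Real.exp (Q / 124) := Real.one_le_exp (by positivity)
  have e11 : Real.exp (Q / 124) ≤ Real.exp (Q / 32) := Real.exp_le_exp.2 (by linarith)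
  have hE0 := Real.exp_pos E
  have e12 : (1 + Q) ^ 2 * Real.exp (Q / 124) ≤ 16384 * Real.exp (Q / 32) := by
    have h2 : 1 + Q ≤ 128 * Real.exp (Q / 128) := by linarith [Real.add_one_le_exp (Q / 128)]
    have h3 : (1 + Q) ^ 2 ≤ (128 * Real.exp (Q / 128)) ^ 2 := pow_le_pow_left₀ (by linarith) h2 2
    have h4 : Real.exp (Q / 128) ^ 2 * Real.exp (Q / 124) ≤ Real.exp (Q / 32) := by
      rw [← Real.exp_nat_mul, ← Real.exp_add, Real.exp_le_exp]; push_cast; linarith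
    nlinarith
  have e13 : 0 < 1 / (c ^ 2 - 1) := by positivity
  refine ⟨?_, by rw [e7]; nlinarith⟩
  have e14 : c ^ 2 / (c ^ 2 - 1) * Real.exp E - 1 - p / (2 * c)
      = 1 / (c ^ 2 - 1) * Real.exp E + ((Real.exp E - 1 - E) + (E - p / (2 * c))) := by
    rw [e7]; ring
  rw [e14]
  refine (abs_add_le _ _).trans ((add_le_add_right ((abs_add_le _ _).trans (add_le_add e6 e4)) _).trans ?_)
  rw [abs_of_pos (by positivity)]
  have e15 : 1 / (c ^ 2 - 1) * Real.exp E ≤ 2 / c ^ 2 * Real.exp (Q / 124) :=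
    mul_le_mul e8 e5 hE0.le (by positivity)
  have e16 : 2 / c ^ 2 * Real.exp (Q / 124) + (Q ^ 2 / c ^ 2 * Real.exp (Q / 124) + Q / c ^ 2)
      = (2 * Real.exp (Q / 124) + Q ^ 2 * Real.exp (Q / 124) + Q) / c ^ 2 := by ring
  have e17 : 32768 / c ^ 2 * Real.exp (Q / 32) = 32768 * Real.exp (Q / 32) / c ^ 2 := by ring
  refine (add_le_add_left e15 _).trans ?_
  rw [e16, e17]
  refine div_le_div_of_nonneg_right ?_ (sq_nonneg c)
  nlinarith [mul_nonneg hQ (sub_nonneg.2 e10), mul_nonneg (sq_nonneg Q) (zero_le_one.trans e10)]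

variable {ν : Measure E3}

/-- the dominating Gaussian -/
noncomputable def g8 (z : E3) : ℝ := Real.exp (-‖z‖ ^ 2 / 8)

/-- the Gaussian weight -/
noncomputable def g4 (z : E3) : ℝ := Real.exp (-‖z‖ ^ 2 / 4)

lemma g4_pos (z : E3) : 0 < g4 z := Real.exp_pos _

lemma continuous_g4 : Continuous g4 := by unfold g4; fun_prop

lemma dom (hI : Integrable g8 ν) {f : E3 → ℝ} (hf : Continuous f) {C : ℝ}
    (h : ∀ᵐ z ∂ν, |f z| ≤ C * g8 z) : Integrable f ν ∧ |∫ z, f z ∂ν| ≤ C * ∫ z, g8 z ∂ν := by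
  have h1 : Integrable f ν := (hI.const_mul C).mono' hf.aestronglyMeasurable h
  refine ⟨h1, abs_integral_le_integral_abs.trans ?_⟩
  rw [← integral_const_mul]
  exact integral_mono_ae h1.abs (hI.const_mul C) h

lemma sq_g4_le (z : E3) : (1 + ‖z‖ ^ 2) * g4 z ≤ 8 * g8 z := by
  have h : g8 z = Real.exp (‖z‖ ^ 2 / 8) * g4 z := by
    rw [g4, g8, ← Real.exp_add]; congr 1; ring
  rw [h, ← mul_assoc]
  exact mul_le_mul_of_nonneg_right (by linarith [Real.add_one_le_exp (‖z‖ ^ 2 / 8)]) (g4_pos z).le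

lemma int_g4 (hI : Integrable g8 ν) {f : E3 → ℝ} (hf : Continuous f) {C : ℝ}
    (h : ∀ z, |f z| ≤ C * (1 + ‖z‖ ^ 2)) : Integrable (fun z => f z * g4 z) ν := by
  have hC : 0 ≤ C := by simpa using (abs_nonneg _).trans (h 0)
  refine (dom hI (f := fun z => f z * g4 z) (hf.mul continuous_g4) (C := C * 8)
    (Eventually.of_forall fun z => ?_)).1
  rw [abs_mul, abs_of_pos (g4_pos z), mul_assoc]
  exact (mul_le_mul_of_nonneg_right (h z) (g4_pos z).le).trans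
    (by rw [mul_assoc]; exact mul_le_mul_of_nonneg_left (sq_g4_le z) hC)

lemma inner_le (z v : E3) : |⟪z, v⟫| ≤ ‖v‖ * (1 + ‖z‖ ^ 2) :=
  (abs_real_inner_le_norm z v).trans (by
    rw [mul_comm]
    exact mul_le_mul_of_nonneg_left (by nlinarith [sq_nonneg (‖z‖ - 1)]) (norm_nonneg _))

lemma inner2_le (z v w : E3) : |⟪z, v⟫ * ⟪z, w⟫| ≤ ‖v‖ * ‖w‖ * (1 + ‖z‖ ^ 2) := by
  rw [abs_mul]
  refine (mul_le_mul (abs_real_inner_le_norm z v) (abs_real_inner_le_norm z w) (abs_nonneg _)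
    (by positivity)).trans ?_
  nlinarith [mul_nonneg (norm_nonneg v) (norm_nonneg w)]

/-- an eigenvector of the matrix of second moments -/
lemma exists_dir (hI : Integrable g8 ν) : ∃ (n : E3) (d : ℝ), ‖n‖ = 1 ∧
    3 * d ≤ ∫ z, ‖z‖ ^ 2 * g4 z ∂ν ∧ ∀ y, ∫ z, ⟪z, n⟫ * ⟪z, y⟫ * g4 z ∂ν = d * ⟪y, n⟫ := by
  have i1 : ∀ v : E3, Integrable (fun z => (⟪z, v⟫ * g4 z) • z) ν := fun v =>
    (int_g4 hI (f := fun z => ‖v‖ * ‖z‖ ^ 2) (by fun_prop) (C := ‖v‖) fun z => by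
      rw [abs_of_nonneg (by positivity)]; gcongr; linarith).mono'
      (Continuous.aestronglyMeasurable (by have := continuous_g4; fun_prop))
      (Eventually.of_forall fun z => by
        rw [norm_smul, norm_mul, Real.norm_of_nonneg (g4_pos z).le, Real.norm_eq_abs]
        have := mul_le_mul_of_nonneg_right (abs_real_inner_le_norm z v)
          (mul_nonneg (g4_pos z).le (norm_nonneg z))
        nlinarith)
  let T : E3 →ₗ[ℝ] E3 :=
    { toFun := fun v => ∫ z, (⟪z, v⟫ * g4 z) • z ∂ν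
      map_add' := fun v w => by
        rw [← integral_add (i1 v) (i1 w)]
        simp only [inner_add_right, add_mul, add_smul]
      map_smul' := fun a v => by
        rw [RingHom.id_apply, ← integral_smul]
        simp only [real_inner_smul_right, smul_smul, mul_assoc] }
  have hT : ∀ v w, ⟪w, T v⟫ = ∫ z, ⟪z, v⟫ * ⟪z, w⟫ * g4 z ∂ν := fun v w => by
    rw [show T v = ∫ z, (⟪z, v⟫ * g4 z) • z ∂ν from rfl, ← integral_inner (i1 v)]
    congr 1
    ext z
    rw [real_inner_smul_right, real_inner_comm z w]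
    ring
  have hS : T.IsSymmetric := fun v w => by
    rw [real_inner_comm, hT, hT]
    simp only [mul_comm]
  have hn : Module.finrank ℝ E3 = 3 := by simp
  set b := hS.eigenvectorBasis hn
  have h1 : ∀ i y, ∫ z, ⟪z, b i⟫ * ⟪z, y⟫ * g4 z ∂ν = hS.eigenvalues hn i * ⟪y, b i⟫ := fun i y => by
    rw [← hT, hS.apply_eigenvectorBasis hn i]
    exact real_inner_smul_right _ _ _
  have h2 : ∑ i, hS.eigenvalues hn i = ∫ z, ‖z‖ ^ 2 * g4 z ∂ν := by
    have h3 : ∀ i, hS.eigenvalues hn i = ∫ z, ⟪z, b i⟫ * ⟪z, b i⟫ * g4 z ∂ν := fun i => by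
      rw [h1, real_inner_self_eq_norm_sq, b.orthonormal.1 i]; simp
    simp only [h3]
    rw [← integral_finsetSum _ fun i _ => int_g4 hI (by fun_prop) (fun z => inner2_le z (b i) (b i))]
    congr 1
    ext z
    rw [← Finset.sum_mul, ← real_inner_self_eq_norm_sq, ← b.sum_inner_mul_inner z z]
    simp only [real_inner_comm]
  refine ⟨b 2, _, b.orthonormal.1 2, ?_, h1 2⟩
  rw [← h2, Fin.sum_univ_three]
  linarith [hS.eigenvalues_antitone hn (show (0 : Fin 3) ≤ 2 by decide),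
    hS.eigenvalues_antitone hn (show (1 : Fin 3) ≤ 2 by decide)]

lemma int_one (hI : Integrable g8 ν) : Integrable g4 ν := by
  simpa using int_g4 hI (f := fun _ => 1) continuous_const (C := 1) fun z => by
    simp

lemma gd_one (ν : Measure E3) (x : E3) :
    gd ν x 1 = (∫ z, Real.exp (-‖z - x‖ ^ 2 / 4) ∂ν) / (4 * Real.pi) := by simp [gd]

lemma gd_zero (ν : Measure E3) : gd ν 0 1 = (∫ z, g4 z ∂ν) / (4 * Real.pi) := by simp [gd, g4]

/-- the first moments vanish -/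
lemma mom1 (hI : Integrable g8 ν) (h : ∀ x, gd ν x 1 ≤ gd ν 0 1) (v : E3) :
    ∫ z, ⟪z, v⟫ * g4 z ∂ν = 0 := by
  have i1 := int_g4 hI (f := fun z => ⟪z, v⟫) (by fun_prop) fun z => inner_le z v
  have i0 := int_one hI
  set m := ∫ z, ⟪z, v⟫ * g4 z ∂ν
  set G := ∫ z, g4 z ∂ν with hG
  have hG0 : 0 ≤ G := integral_nonneg fun z => (g4_pos z).le
  have key : ∀ t : ℝ, t / 2 * m ≤ t ^ 2 * ‖v‖ ^ 2 / 4 * G := fun t => by
    have h1 := h (t • v)
    rw [gd_one, gd_zero, div_le_div_iff_of_pos_right (by positivity)] at h1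
    have h2 : ∫ z, (g4 z + t / 2 * (⟪z, v⟫ * g4 z) - t ^ 2 * ‖v‖ ^ 2 / 4 * g4 z) ∂ν
        ≤ ∫ z, Real.exp (-‖z - t • v‖ ^ 2 / 4) ∂ν := by
      refine integral_mono ((i0.add (i1.const_mul _)).sub (i0.const_mul _))
        (dom hI (by fun_prop) (C := Real.exp (‖t • v‖ ^ 2 / 4)) (Eventually.of_forall fun z => ?_)).1
        fun z => ?_
      · rw [abs_of_pos (Real.exp_pos _), g8, ← Real.exp_add, Real.exp_le_exp]
        have : ‖z‖ ≤ ‖z - t • v‖ + ‖t • v‖ := by simpa using norm_add_le (z - t • v) (t • v)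
        nlinarith [norm_nonneg z, sq_nonneg (‖z - t • v‖ - ‖t • v‖)]
      · have e : -‖z - t • v‖ ^ 2 / 4 = (t / 2 * ⟪z, v⟫ - t ^ 2 * ‖v‖ ^ 2 / 4) + -‖z‖ ^ 2 / 4 := by
          rw [norm_sub_sq_real, real_inner_smul_right, norm_smul, mul_pow, Real.norm_eq_abs, sq_abs]
          ring
        simp only
        rw [e, Real.exp_add, ← g4]
        nlinarith [Real.add_one_le_exp (t / 2 * ⟪z, v⟫ - t ^ 2 * ‖v‖ ^ 2 / 4), g4_pos z]
    rw [integral_sub (i0.fun_add (i1.const_mul _)) (i0.const_mul _), integral_add i0 (i1.const_mul _),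
      integral_const_mul, integral_const_mul] at h2
    linarith
  have hK : 0 < ‖v‖ ^ 2 * G + 1 := by positivity
  have h1 := key (m / (‖v‖ ^ 2 * G + 1))
  rw [div_pow, ← sub_nonneg] at h1
  have e : m ^ 2 / (‖v‖ ^ 2 * G + 1) ^ 2 * ‖v‖ ^ 2 / 4 * G - m / (‖v‖ ^ 2 * G + 1) / 2 * m
      = -(m ^ 2 * (‖v‖ ^ 2 * G + 2)) / (4 * (‖v‖ ^ 2 * G + 1) ^ 2) := by field_simp; ring
  rw [e, le_div_iff₀ (by positivity), zero_mul, neg_nonneg] at h1
  exact pow_eq_zero_iff two_ne_zero |>.1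
    (le_antisymm (nonpos_of_mul_nonpos_left h1 (by positivity)) (sq_nonneg m))

/-- the second moment -/
lemma mom2 (hI : Integrable g8 ν) (h : gd ν 0 (41 / 40) ≤ gd ν 0 1) (h1 : gd ν 0 1 ≤ 21 / 20) :
    ∫ z, ‖z‖ ^ 2 * g4 z ∂ν ≤ 18 * Real.pi := by
  have i1 := int_g4 hI (f := fun z => ‖z‖ ^ 2) (by fun_prop) (C := 1) fun z => by
    rw [abs_of_nonneg (sq_nonneg _)]; linarith
  have i0 := int_one hI
  have hπ := Real.pi_pos
  rw [gd_zero, div_le_iff₀ (by positivity)] at h1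
  rw [gd_zero, gd, div_le_div_iff₀ (by positivity) (by positivity)] at h
  have h2 : ∫ z, (g4 z + 81 / 6724 * (‖z‖ ^ 2 * g4 z)) ∂ν
      ≤ ∫ z, Real.exp (-‖z - 0‖ ^ 2 / (4 * (41 / 40) ^ 2)) ∂ν := by
    refine integral_mono (i0.add (i1.const_mul _))
      (dom hI (by fun_prop) (C := 1) (Eventually.of_forall fun z => ?_)).1 fun z => ?_
    · rw [abs_of_pos (Real.exp_pos _), g8, one_mul, Real.exp_le_exp, sub_zero,
        show (4 : ℝ) * (41 / 40) ^ 2 = 1681 / 400 by norm_num]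
      nlinarith [sq_nonneg ‖z‖]
    · have e : -‖z - 0‖ ^ 2 / (4 * (41 / 40) ^ 2) = 81 / 6724 * ‖z‖ ^ 2 + -‖z‖ ^ 2 / 4 := by
        rw [sub_zero]; ring
      simp only
      rw [e, Real.exp_add, ← g4]
      nlinarith [Real.add_one_le_exp (81 / 6724 * ‖z‖ ^ 2), g4_pos z]
  rw [integral_add i0 (i1.const_mul _), integral_const_mul] at h2
  nlinarith

/-- the kernel of the sub-mean value inequality -/
noncomputable def kr (c : ℝ) (y z : E3) : ℝ := c ^ 2 / (c ^ 2 - 1)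
  * Real.exp ((2 * c * ⟪z, y⟫ - (‖z‖ ^ 2 + ‖y‖ ^ 2)) / (4 * (c ^ 2 - 1)))

lemma kr_le {c : ℝ} (hc : 32 ≤ c) (y z : E3) :
    |kr c y z - 1 - ⟪z, y⟫ / (2 * c)| ≤ 32768 / c ^ 2 * Real.exp ((‖z‖ ^ 2 + ‖y‖ ^ 2) / 32) ∧
      kr c y z ≤ 2 * Real.exp ((‖z‖ ^ 2 + ‖y‖ ^ 2) / 32) :=
  ker_le hc ((abs_real_inner_le_norm z y).trans (by nlinarith [sq_nonneg (‖z‖ - ‖y‖)]))

lemma int_kr {c : ℝ} (hc : 1 < c) (y : E3) (f : E3 → ℝ) :
    (∫ x, f x * Real.exp (-‖x - y‖ ^ 2 / (4 * (c ^ 2 - 1))) ∂(scal ν c))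
      / (4 * Real.pi * (c ^ 2 - 1)) = (∫ z, f (c • z) * kr c y z * g4 z ∂ν) / (4 * Real.pi) := by
  have h1 : 0 < c ^ 2 - 1 := by nlinarith
  have hπ := Real.pi_pos
  rw [P218UZ.integral_scal ν (by linarith), ← div_div, ← integral_const_mul,
    div_right_comm, ← integral_div]
  congr 2
  ext z
  have e : -‖c • z - y‖ ^ 2 / (4 * (c ^ 2 - 1))
      = (2 * c * ⟪z, y⟫ - (‖z‖ ^ 2 + ‖y‖ ^ 2)) / (4 * (c ^ 2 - 1)) + -‖z‖ ^ 2 / 4 := by
    rw [norm_sub_sq_real, real_inner_smul_left, norm_smul, mul_pow, Real.norm_eq_abs, sq_abs]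
    field_simp
    ring
  rw [e, Real.exp_add, kr, g4]
  ring

lemma gd_kr {c : ℝ} (hc : 1 < c) (y : E3) :
    (∫ z, kr c y z * g4 z ∂ν) / (4 * Real.pi) = gd ν (c⁻¹ • y) (√(c ^ 2 - 1) / c) := by
  have h1 : 0 < c ^ 2 - 1 := by nlinarith
  have h0 : 0 < c := by linarith
  have h := int_kr (ν := ν) hc y fun _ => 1
  simp only [one_mul] at h
  rw [← h, ← P218UZ.gd_scal ν h0, smul_inv_smul₀ h0.ne', mul_div_cancel₀ _ h0.ne', gd,
    Real.sq_sqrt h1.le]

lemma step (hI : Integrable g8 ν) {B c D ε d L : ℝ} (hB : ∫ z, g8 z ∂ν ≤ B) (hc : 32 ≤ c)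
    {n y : E3} (hD : 0 ≤ D) (hn : ∀ z ∈ ν.support, |⟪z, n⟫| ≤ D * Real.exp (‖z‖ ^ 2 / 32))
    (h0 : ∫ z, ⟪z, n⟫ * g4 z ∂ν = 0) (h1 : ∫ z, ⟪z, n⟫ * ⟪z, y⟫ * g4 z ∂ν = d * ⟪y, n⟫)
    (h2 : gd ν (c⁻¹ • y) (√(c ^ 2 - 1) / c) ≤ 1 + ε) (hS : SubMean ν) (hy : y ∈ ν.support) :
    L * ⟪y, n⟫ * (2 - d / (4 * Real.pi)) ≤ L ^ 2 * ε
      + |L| * (65536 / c * D * Real.exp (‖y‖ ^ 2 / 32) * B)
      + 2 * c ^ 2 * D ^ 2 * Real.exp (‖y‖ ^ 2 / 32) * B := by
  have hc1 : 1 < c := by linarith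
  have hc0 : 0 < c := by linarith
  have hπ : 1 ≤ 4 * Real.pi := by linarith [Real.pi_gt_three]
  have h := hS y hy c hc1 n L
  rw [int_kr hc1, le_div_iff₀ (by positivity)] at h
  rw [← gd_kr hc1, div_le_iff₀ (by positivity)] at h2
  set W := Real.exp (‖y‖ ^ 2 / 32) with hW
  have hW0 : 0 < W := Real.exp_pos _
  have ck : Continuous (kr c y) := by unfold kr; fun_prop
  have c4 := continuous_g4
  have k0 : ∀ z, 0 ≤ kr c y z := fun z =>
    mul_nonneg (div_nonneg (sq_nonneg c) (by nlinarith)) (Real.exp_pos _).le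
  have ex : ∀ (z : E3) (k : ℕ), k ≤ 4 → Real.exp (‖z‖ ^ 2 / 32) ^ k * g4 z ≤ g8 z := fun z k hk => by
    rw [g4, g8, ← Real.exp_nat_mul, ← Real.exp_add, Real.exp_le_exp]
    have : (k : ℝ) ≤ 4 := by exact_mod_cast hk
    nlinarith [sq_nonneg ‖z‖]
  have hQ : ∀ z : E3, Real.exp ((‖z‖ ^ 2 + ‖y‖ ^ 2) / 32) = Real.exp (‖z‖ ^ 2 / 32) * W := fun z => by
    rw [add_div, Real.exp_add]
  have hae : ∀ᵐ z ∂ν, z ∈ ν.support := Measure.support_mem_ae
  obtain ⟨a1, -⟩ := dom hI (f := fun z => kr c y z * g4 z) (by fun_prop) (C := 2 * W)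
    (Eventually.of_forall fun z => by
      rw [abs_of_nonneg (mul_nonneg (k0 z) (g4_pos z).le)]
      have e1 := mul_le_mul_of_nonneg_right (kr_le hc y z).2 (g4_pos z).le
      have e2 := mul_le_mul_of_nonneg_left (ex z 1 (by norm_num)) (show 0 ≤ 2 * W by positivity)
      rw [hQ] at e1
      nlinarith)
  obtain ⟨a2, b2⟩ := dom hI (f := fun z => ⟪z, n⟫ * (kr c y z - 1 - ⟪z, y⟫ / (2 * c)) * g4 z)
    (by fun_prop) (C := 32768 / c ^ 2 * D * W) (hae.mono fun z hz => by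
      rw [abs_mul, abs_mul, abs_of_pos (g4_pos z)]
      have e1 := mul_le_mul_of_nonneg_right (mul_le_mul (hn z hz) (kr_le hc y z).1 (abs_nonneg _)
        (by positivity)) (g4_pos z).le
      have e2 := mul_le_mul_of_nonneg_left (ex z 2 (by norm_num))
        (show 0 ≤ 32768 / c ^ 2 * D * W by positivity)
      rw [hQ] at e1
      exact e1.trans (le_trans (le_of_eq (by ring)) e2))
  obtain ⟨a3, b3⟩ := dom hI (f := fun z => ⟪z, n⟫ ^ 2 * kr c y z * g4 z)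
    (by fun_prop) (C := 2 * D ^ 2 * W) (hae.mono fun z hz => by
      rw [abs_of_nonneg (mul_nonneg (mul_nonneg (sq_nonneg _) (k0 z)) (g4_pos z).le), ← sq_abs]
      have e1 := mul_le_mul_of_nonneg_right (mul_le_mul (pow_le_pow_left₀ (abs_nonneg _) (hn z hz) 2)
        (kr_le hc y z).2 (k0 z) (by positivity)) (g4_pos z).le
      have e2 := mul_le_mul_of_nonneg_left (ex z 3 (by norm_num))
        (show 0 ≤ 2 * D ^ 2 * W by positivity)
      rw [hQ] at e1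
      exact e1.trans (le_trans (le_of_eq (by ring)) e2))
  have a4 := int_g4 hI (f := fun z => ⟪z, n⟫) (by fun_prop) fun z => inner_le z n
  have a5 := int_g4 hI (f := fun z => ⟪z, n⟫ * ⟪z, y⟫) (by fun_prop) fun z => inner2_le z n y
  have e : ∀ z, (L + ⟪c • z, n⟫) ^ 2 * kr c y z * g4 z = L ^ 2 * (kr c y z * g4 z)
      + 2 * L * c * (⟪z, n⟫ * (kr c y z - 1 - ⟪z, y⟫ / (2 * c)) * g4 z)
      + c ^ 2 * (⟪z, n⟫ ^ 2 * kr c y z * g4 z) + 2 * L * c * (⟪z, n⟫ * g4 z)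
      + L * (⟪z, n⟫ * ⟪z, y⟫ * g4 z) := fun z => by
    rw [real_inner_smul_left]
    field_simp
    ring
  simp only [e] at h
  rw [integral_add ((((a1.const_mul _).fun_add (a2.const_mul _)).fun_add (a3.const_mul _)).fun_add
      (a4.const_mul _)) (a5.const_mul _),
    integral_add (((a1.const_mul _).fun_add (a2.const_mul _)).fun_add (a3.const_mul _)) (a4.const_mul _),
    integral_add ((a1.const_mul _).fun_add (a2.const_mul _)) (a3.const_mul _),
    integral_add (a1.const_mul _) (a2.const_mul _)] at h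
  simp only [integral_const_mul] at h
  rw [h0, h1] at h
  have hB0 : 0 ≤ B := (integral_nonneg fun z => (Real.exp_pos _).le).trans hB
  have f2 := b2.trans (mul_le_mul_of_nonneg_left hB (by positivity))
  have f3 := (le_abs_self _).trans (b3.trans (mul_le_mul_of_nonneg_left hB (by positivity)))
  have f4 : 2 * L * c * ∫ z, ⟪z, n⟫ * (kr c y z - 1 - ⟪z, y⟫ / (2 * c)) * g4 z ∂ν
      ≤ |L| * (65536 / c * D * W * B) := by
    refine (le_abs_self _).trans ?_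
    rw [abs_mul, abs_mul, abs_mul, abs_two, abs_of_pos hc0]
    refine (mul_le_mul_of_nonneg_left f2 (by positivity)).trans (le_of_eq ?_)
    field_simp
    ring
  have f5 := mul_le_mul_of_nonneg_left f3 (sq_nonneg c)
  have f6 := mul_le_mul_of_nonneg_left h2 (sq_nonneg L)
  have f7 : 0 ≤ |L| * (65536 / c * D * W * B) + 2 * c ^ 2 * D ^ 2 * W * B := by positivity
  have f8 := mul_le_mul_of_nonneg_left hπ f7
  refine le_of_mul_le_mul_right ?_ (show 0 < 4 * Real.pi by positivity)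
  have e2 : L * ⟪y, n⟫ * (2 - d / (4 * Real.pi)) * (4 * Real.pi)
      = 2 * L * ⟪y, n⟫ * (4 * Real.pi) - L * (d * ⟪y, n⟫) := by field_simp
  rw [e2]
  nlinarith [mul_nonneg (sq_nonneg ⟪y, n⟫) (zero_le_one.trans hπ)]

/-- a measure with the sub-mean value property and density close to one lies in a plane -/
theorem planar (B : ℝ) : ∃ ε > 0, ε ≤ 1 / 20 ∧ ∀ ν : Measure E3, Integrable g8 ν →
    ∫ z, g8 z ∂ν ≤ B → (∀ x r, 0 < r → r ≤ 2 → gd ν x r ≤ gd ν 0 1) → gd ν 0 1 ≤ 1 + ε →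
    SubMean ν → ∃ n : E3, ‖n‖ = 1 ∧ ∀ y ∈ ν.support, ⟪y, n⟫ = 0 := by
  obtain ⟨c, hc⟩ : ∃ c : ℝ, c = 32 + 786432 * |B| := ⟨_, rfl⟩
  obtain ⟨η, hη⟩ : ∃ η : ℝ, η = 1 / (24 * c ^ 2 * |B| + 2) := ⟨_, rfl⟩
  have hB0 := abs_nonneg B
  have hc1 : 32 ≤ c := by linarith
  have hc0 : 0 < c := by linarith
  have hη0 : 0 < η := by rw [hη]; positivity
  have hη1 : η * (24 * c ^ 2 * |B| + 2) = 1 := by rw [hη]; field_simp
  have hη2 : η ≤ 1 / 2 := by nlinarith [mul_nonneg hη0.le (mul_nonneg (sq_nonneg c) hB0)]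
  refine ⟨η / 12, by positivity, by linarith, fun ν hI hB hm h1 hS => ?_⟩
  obtain ⟨n, d, hn, hd, hT⟩ := exists_dir hI
  have hπ := Real.pi_pos
  have hd2 : d / (4 * Real.pi) ≤ 3 / 2 := by
    rw [div_le_iff₀ (by positivity)]
    linarith [mom2 hI (hm _ _ (by norm_num) (by norm_num)) (by linarith)]
  have h0 := mom1 hI (fun x => hm x 1 one_pos one_le_two) n
  have key : ∀ k : ℕ, ∀ y ∈ ν.support, |⟪y, n⟫| ≤ 16 / 2 ^ k * Real.exp (‖y‖ ^ 2 / 32) := by
    intro k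
    induction k with
    | zero =>
      intro y _
      have := abs_real_inner_le_norm y n
      rw [hn] at this
      nlinarith [Real.add_one_le_exp (‖y‖ ^ 2 / 32), sq_nonneg (‖y‖ - 1)]
    | succ k ih =>
      intro y hy
      set D : ℝ := 16 / 2 ^ k with hD
      have hD0 : 0 < D := by positivity
      set W := Real.exp (‖y‖ ^ 2 / 32) with hW
      have hW1 : 1 ≤ W := Real.one_le_exp (by positivity)
      have hq : 0 < c ^ 2 - 1 := by nlinarith
      have h2 : gd ν (c⁻¹ • y) (√(c ^ 2 - 1) / c) ≤ 1 + η / 12 :=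
        (hm _ _ (by positivity) ((div_le_iff₀ hc0).2 (Real.sqrt_le_iff.2
          ⟨by positivity, by nlinarith⟩))).trans h1
      have hℓ : 0 < D * W / η := by positivity
      have h3 : ∀ L, |L| = D * W / η → L * ⟪y, n⟫ = D * W / η * |⟪y, n⟫| →
          |⟪y, n⟫| ≤ D / 2 * W := fun L hL hL' => by
        have h4 := step hI (hB.trans (le_abs_self B)) hc1 hD0.le ih h0 (hT y) h2 hS hy (L := L)
        rw [hL', ← sq_abs L, hL, ← hW] at h4
        have e1 : 65536 / c * |B| ≤ 1 / 12 := by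
          rw [div_mul_eq_mul_div, div_le_iff₀ hc0]; linarith
        have e2 : 2 * c ^ 2 * D ^ 2 * W * |B| = D * W / η * (D * (2 * c ^ 2 * |B| * η)) := by
          field_simp
        have e3 : (D * W / η) ^ 2 * (η / 12) = D * W / η * (D * W / 12) := by field_simp
        rw [e2, e3, mul_assoc, ← mul_add, ← mul_add, mul_le_mul_iff_right₀ hℓ] at h4
        have e4 : D * (2 * c ^ 2 * |B| * η) ≤ D * W / 12 := by
          have : 2 * c ^ 2 * |B| * η ≤ 1 / 12 := by nlinarith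
          nlinarith [mul_le_mul_of_nonneg_left this hD0.le]
        have e5 := mul_le_mul_of_nonneg_left e1 (show 0 ≤ D * W by positivity)
        nlinarith [abs_nonneg ⟪y, n⟫]
      rw [show (16 : ℝ) / 2 ^ (k + 1) = D / 2 by rw [hD, pow_succ, div_div]]
      rcases le_total 0 ⟪y, n⟫ with h | h
      · exact h3 _ (abs_of_pos hℓ) (by rw [abs_of_nonneg h])
      · exact h3 (-(D * W / η)) (by rw [abs_neg, abs_of_pos hℓ]) (by rw [abs_of_nonpos h]; ring)
  refine ⟨n, hn, fun y hy => abs_nonpos_iff.1 (ge_of_tendsto' (x := atTop) ?_ fun k => key k y hy)⟩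
  simpa using (tendsto_const_nhds.div_atTop (tendsto_pow_atTop_atTop_of_one_lt
    (one_lt_two (α := ℝ)))).mul_const (Real.exp (‖y‖ ^ 2 / 32))

end Vale.Agent.P218WU
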